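import Vale.Agent.Lib.P052.Final

namespace Vale.Agent.Results.P052.A_dim63

/-- Borsuk's conjecture fails in dimension 63: there is a finite set in Euclidean 63-space of positive
diameter which is not the union of 64 subsets all of strictly smaller diameter. -/
theorem result : ∃ Y : Set (EuclideanSpace ℝ (Fin 63)), Y.Finite ∧ 0 < Metric.diam Y ∧
    ∀ C : Fin 64 → Set (EuclideanSpace ℝ (Fin 63)), (⋃ i, C i) = Y →
      ∃ i, Metric.diam Y ≤ Metric.diam (C i) :=
  Vale.Agent.Lib.P052.main

end Vale.Agent.Results.P052.A_dim63
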